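import Vale.Agent.P180.MathlibUsed

namespace Vale.Agent.P180

universe u

section Corner

variable {R A : Type*} [CommRing R] [Ring A] [Algebra R A] {e : A} (he : IsIdempotentElem e)

include he in
theorem smul_mem_corner (r : R) (x : he.Corner) : r • x.1 ∈ Subsemigroup.corner e := by
  obtain ⟨a, ha⟩ := x.2
  exact ⟨r • a, by rw [← ha]; simp⟩

instance cornerSMul : SMul R he.Corner := ⟨fun r x => ⟨r • x.1, smul_mem_corner he r x⟩⟩

/-- The inclusion of the corner ring `eAe` in `A`. -/
def cornerVal : he.Corner →+ A where
  toFun := Subtype.val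
  map_zero' := rfl
  map_add' _ _ := rfl

noncomputable instance cornerModule : Module R he.Corner :=
  Function.Injective.module R (cornerVal he) Subtype.val_injective fun _ _ => rfl

/-- The corner ring `eAe` of an idempotent `e` of an `R`-algebra `A`, as an `R`-algebra. -/
noncomputable instance cornerAlgebra : Algebra R he.Corner :=
  Algebra.ofModule (fun r x y => Subtype.ext (smul_mul_assoc r x.1 y.1))
    fun r x y => Subtype.ext (mul_smul_comm r x.1 y.1)

end Corner

section Blocks

variable {k : Type u} [Field k] {G : Type} [Group G]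

/-- `b` is a block idempotent of `kG`, that is, a primitive idempotent of the centre of `kG`. -/
structure IsBlock (b : MonoidAlgebra k G) : Prop where
  central : b ∈ Subalgebra.center k (MonoidAlgebra k G)
  idem : IsIdempotentElem b
  ne_zero : b ≠ 0
  primitive : ∀ c ∈ Subalgebra.center k (MonoidAlgebra k G),
    IsIdempotentElem c → c * b = c → c = 0 ∨ c = b

/-- The block algebra `kGb`, with identity element `b`. -/
abbrev IsBlock.Alg {b : MonoidAlgebra k G} (hb : IsBlock b) : Type u := hb.idem.Corner

/-- The diagonal embedding `D → G × G`, `x ↦ (x, x)`. -/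
def diagHom (D : Subgroup G) : D →* G × G := D.subtype.prod D.subtype

open MonoidAlgebra in
/-- The `k[G × G]`-module `kGb`, with `(x, y) • a = x a y⁻¹`, is a direct summand of the
`k[G × G]`-module `V` given by `σ`: there are `k[G × G]`-linear maps `i` from `kGb` to `V` and `q`
from `V` to `kGb` with `q ∘ i = id`. (Here `i` is given as a `k[G × G]`-linear map on all of `kG`,
which is no restriction since `kGb` is a direct summand of `kG`.) -/
def IsSummandOf (b : MonoidAlgebra k G) {V : Type*} [AddCommGroup V] [Module k V]
    (σ : Representation k (G × G) V) : Prop :=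
  ∃ (i : MonoidAlgebra k G →ₗ[k] V) (q : V →ₗ[k] MonoidAlgebra k G),
    (∀ (x y : G) (a : MonoidAlgebra k G),
      i (single x 1 * a * single y⁻¹ 1) = σ (x, y) (i a)) ∧
    (∀ (x y : G) (v : V), q (σ (x, y) v) = single x 1 * q v * single y⁻¹ 1) ∧
    (∀ v, q v * b = q v) ∧ ∀ a, a * b = a → q (i a) = a

/-- The `k[G × G]`-module `kGb` is a direct summand of a module induced from the diagonal subgroup
`{(x, x) : x ∈ D}`. -/
def IsSummandOfInduced (b : MonoidAlgebra k G) (D : Subgroup G) : Prop :=
  ∃ (W : Type u) (_ : AddCommGroup W) (_ : Module k W) (ρ : Representation k D W),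
    IsSummandOf b (Representation.ind (diagHom D) ρ)

/-- `D` is a defect group of the block algebra `kGb`. -/
def IsDefectGroup (b : MonoidAlgebra k G) (D : Subgroup G) : Prop :=
  Minimal (IsSummandOfInduced b) D

end Blocks

/-- Every composition factor `K / L` of `G` whose order is divisible by `p` has order at
most `m`. -/
def BoundedFactors (p m : ℕ) (G : Type) [Group G] : Prop :=
  ∀ K : Subgroup G, K.IsSubnormal → ∀ (L : Subgroup K) [L.Normal], IsSimpleGroup (K ⧸ L) →
    p ∣ Nat.card (K ⧸ L) → Nat.card (K ⧸ L) ≤ m

end Vale.Agent.P180
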