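import Mathlib.Algebra.Category.ModuleCat.Adjunctions
import Mathlib.Algebra.Module.StablyFree.Basic
import Mathlib.Algebra.Order.Ring.Star
import Mathlib.CategoryTheory.Category.Pairwise
import Mathlib.Data.Finite.Perm
import Mathlib.Data.Int.Star
import Mathlib.GroupTheory.IsSubnormal
import Mathlib.GroupTheory.Nilpotent
import Mathlib.GroupTheory.SchurZassenhaus
import Mathlib.LinearAlgebra.Eigenspace.Triangularizable
import Mathlib.LinearAlgebra.Matrix.FiniteDimensional
import Mathlib.Order.CompletePartialOrder
import Mathlib.RepresentationTheory.Induced
import Mathlib.RingTheory.Etale.Weakly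
import Mathlib.RingTheory.Flat.TorsionFree
import Mathlib.RingTheory.Henselian
import Mathlib.RingTheory.Morita.Basic
import Mathlib.RingTheory.PicardGroup
import Mathlib.RingTheory.RegularLocalRing.Defs
import Mathlib.RingTheory.SimpleModule.IsAlgClosed
import Mathlib.RingTheory.SimpleRing.Principal
import Mathlib.RingTheory.TotallySplit
import Mathlib.Tactic

/-! The part of Mathlib that the development of this folder uses. -/
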